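import Mathlib

/-!
# P054: point sets covered by few lines

An `n`-point set in `ℝ^d` that is covered by `k` lines has a point with at least `n / k - 1`
distinct distances to the other points; so it determines at least `n / k - 1` distinct distances,
and at least `n ^ (2 / d) - 1` of them as soon as `k ≤ n ^ (1 - 2 / d)`.
-/

namespace Vale.Agent.Results.P054.AFewLinesSharp

open Finset

theorem line_case {d : ℕ} (P L : Finset (EuclideanSpace ℝ (Fin d)))
    (a v : EuclideanSpace ℝ (Fin d)) (hv : v ≠ 0) (hLP : L ⊆ P)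
    (hL : ∀ y ∈ L, ∃ t : ℝ, y = a + t • v) (hne : L.Nonempty) :
    ∃ x ∈ L, L.card ≤ ((P.erase x).image (fun y => dist y x)).card + 1 := by
  classical
  obtain ⟨x, hxL, hmin⟩ := Finset.exists_min_image L (fun y => (inner ℝ v y : ℝ)) hne
  refine ⟨x, hxL, ?_⟩
  have hvpos : 0 < ‖v‖ := norm_pos_iff.mpr hv
  obtain ⟨s, hs⟩ := hL x hxL
  have key : ∀ y ∈ L, ∃ t : ℝ, s ≤ t ∧ y = a + t • v ∧ dist y x = (t - s) * ‖v‖ := by
    intro y hy
    obtain ⟨t, ht⟩ := hL y hy
    have h1 : (inner ℝ v x : ℝ) ≤ inner ℝ v y := hmin y hy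
    rw [hs, ht, inner_add_right, inner_add_right, inner_smul_right, inner_smul_right,
      real_inner_self_eq_norm_sq] at h1
    have hst : s ≤ t := by
      have h2 : 0 < ‖v‖ ^ 2 := by positivity
      by_contra hlt
      push Not at hlt
      nlinarith
    refine ⟨t, hst, ht, ?_⟩
    rw [dist_eq_norm, ht, hs]
    have h3 : a + t • v - (a + s • v) = (t - s) • v := by rw [sub_smul]; abel
    rw [h3, norm_smul, Real.norm_eq_abs, abs_of_nonneg (sub_nonneg.mpr hst)]
  have hcard : (L.erase x).card ≤ ((P.erase x).image (fun y => dist y x)).card := by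
    refine Finset.card_le_card_of_injOn (fun y => dist y x) ?_ ?_
    · intro y hy
      have hy' := Finset.mem_erase.mp (Finset.mem_coe.mp hy)
      exact Finset.mem_coe.mpr
        (Finset.mem_image.mpr ⟨y, Finset.mem_erase.mpr ⟨hy'.1, hLP hy'.2⟩, rfl⟩)
    · intro y1 h1 y2 h2 h12
      have h1' := Finset.mem_erase.mp (Finset.mem_coe.mp h1)
      have h2' := Finset.mem_erase.mp (Finset.mem_coe.mp h2)
      obtain ⟨t1, -, e1, d1⟩ := key y1 h1'.2
      obtain ⟨t2, -, e2, d2⟩ := key y2 h2'.2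
      simp only at h12
      rw [d1, d2] at h12
      have h4 : t1 - s = t2 - s := mul_right_cancel₀ hvpos.ne' h12
      have h5 : t1 = t2 := by linarith
      rw [e1, e2, h5]
  have h6 := Finset.card_erase_of_mem hxL
  have h7 : 0 < L.card := Finset.card_pos.mpr hne
  omega

theorem result (d : ℕ) (P : Finset (EuclideanSpace ℝ (Fin d))) (hP : P.Nonempty) (k : ℕ)
    (a v : Fin k → EuclideanSpace ℝ (Fin d)) (hv : ∀ i, v i ≠ 0)
    (hcov : ∀ y ∈ P, ∃ i, ∃ t : ℝ, y = a i + t • v i) :
    (∃ x ∈ P, P.card ≤ k * (((P.erase x).image (fun y => dist y x)).card + 1)) ∧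
    P.card ≤ k * ((P.offDiag.image (fun pq => dist pq.1 pq.2)).card + 1) ∧
    ((k : ℝ) ≤ (P.card : ℝ) ^ (1 - 2 / (d : ℝ)) →
      (P.card : ℝ) ^ (2 / (d : ℝ)) ≤ ((P.offDiag.image (fun pq => dist pq.1 pq.2)).card : ℝ) + 1) := by
  classical
  have pin : ∃ x ∈ P, P.card ≤ k * (((P.erase x).image (fun y => dist y x)).card + 1) := by
    obtain ⟨x0, hx0, hmax⟩ := Finset.exists_max_image P
      (fun x => ((P.erase x).image (fun y => dist y x)).card) hP
    refine ⟨x0, hx0, ?_⟩
    have hsub : P ⊆ Finset.univ.biUnion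
        (fun i : Fin k => P.filter (fun y => ∃ t : ℝ, y = a i + t • v i)) := by
      intro y hy
      obtain ⟨i, hi⟩ := hcov y hy
      exact Finset.mem_biUnion.2 ⟨i, Finset.mem_univ _, Finset.mem_filter.2 ⟨hy, hi⟩⟩
    have hcard : ∀ i : Fin k, (P.filter (fun y => ∃ t : ℝ, y = a i + t • v i)).card ≤
        ((P.erase x0).image (fun y => dist y x0)).card + 1 := by
      intro i
      rcases (P.filter (fun y => ∃ t : ℝ, y = a i + t • v i)).eq_empty_or_nonempty with h | h
      · rw [h]; simp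
      · obtain ⟨x, hx, hle⟩ := line_case P _ (a i) (v i) (hv i) (Finset.filter_subset _ _)
          (fun y hy => (Finset.mem_filter.1 hy).2) h
        have h2 := hmax x (Finset.filter_subset _ _ hx)
        exact hle.trans (by simpa using h2)
    calc P.card ≤ (Finset.univ.biUnion
            (fun i : Fin k => P.filter (fun y => ∃ t : ℝ, y = a i + t • v i))).card :=
          Finset.card_le_card hsub
      _ ≤ ∑ i : Fin k, (P.filter (fun y => ∃ t : ℝ, y = a i + t • v i)).card :=
          Finset.card_biUnion_le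
      _ ≤ ∑ _i : Fin k, (((P.erase x0).image (fun y => dist y x0)).card + 1) :=
          Finset.sum_le_sum (fun i _ => hcard i)
      _ = k * (((P.erase x0).image (fun y => dist y x0)).card + 1) := by simp
  have all : P.card ≤ k * ((P.offDiag.image (fun pq => dist pq.1 pq.2)).card + 1) := by
    obtain ⟨x, hx, hle⟩ := pin
    refine hle.trans (Nat.mul_le_mul_left k (Nat.succ_le_succ (Finset.card_le_card ?_)))
    intro r hr
    obtain ⟨y, hy, rfl⟩ := Finset.mem_image.1 hr
    have hy' := Finset.mem_erase.1 hy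
    exact Finset.mem_image.2 ⟨(y, x), Finset.mem_offDiag.2 ⟨hy'.2, hx, hy'.1⟩, rfl⟩
  refine ⟨pin, all, fun hk => ?_⟩
  have hn : (0 : ℝ) < P.card := by exact_mod_cast Finset.card_pos.2 hP
  have hk0 : (0 : ℝ) < k := by
    rcases Nat.eq_zero_or_pos k with h | h
    · subst h
      simp at all
      exact absurd all hP.ne_empty
    · exact_mod_cast h
  have hsplit : (P.card : ℝ) = (P.card : ℝ) ^ (2 / (d : ℝ)) * (P.card : ℝ) ^ (1 - 2 / (d : ℝ)) := by
    rw [← Real.rpow_add hn]
    simp
  have hall : (P.card : ℝ) ≤ k * (((P.offDiag.image (fun pq => dist pq.1 pq.2)).card : ℝ) + 1) := by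
    exact_mod_cast all
  have h1 : (P.card : ℝ) ^ (2 / (d : ℝ)) * k ≤ (P.card : ℝ) := by
    calc (P.card : ℝ) ^ (2 / (d : ℝ)) * k
        ≤ (P.card : ℝ) ^ (2 / (d : ℝ)) * (P.card : ℝ) ^ (1 - 2 / (d : ℝ)) :=
          mul_le_mul_of_nonneg_left hk (Real.rpow_nonneg hn.le _)
      _ = P.card := hsplit.symm
  have h2 : (P.card : ℝ) ^ (2 / (d : ℝ)) * k ≤
      (((P.offDiag.image (fun pq => dist pq.1 pq.2)).card : ℝ) + 1) * k := by
    rw [mul_comm (((P.offDiag.image (fun pq => dist pq.1 pq.2)).card : ℝ) + 1)]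
    exact h1.trans hall
  exact le_of_mul_le_mul_right h2 hk0

end Vale.Agent.Results.P054.AFewLinesSharp
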