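import Mathlib

/-!
# P054: distinct distances of point sets covered by few lines

A set of `n` points of `ℝ^d` that is covered by `k` lines has a point with at least
`(n / k - 1) / 2` distinct distances to the other points.  Hence the conjectured bound
`n ^ (2 / d) / 3` holds whenever `k ≤ n ^ (1 - 2 / d)`.
-/

open Finset

namespace Vale.Agent.Results.P054.FewLines

/-- Euclidean `d`-space. -/
abbrev E (d : ℕ) : Type := EuclideanSpace ℝ (Fin d)

/-- The set of distances between distinct points of `P`. -/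
noncomputable def distSet {d : ℕ} (P : Finset (E d)) : Finset ℝ :=
  P.offDiag.image (fun pq => dist pq.1 pq.2)

/-- The set of distances from `x` to the other points of `P`. -/
noncomputable def pinned {d : ℕ} (P : Finset (E d)) (x : E d) : Finset ℝ :=
  (P.erase x).image (dist x)

theorem pinned_subset {d : ℕ} (P : Finset (E d)) (x : E d) (hx : x ∈ P) :
    pinned P x ⊆ distSet P := by
  intro r hr
  obtain ⟨y, hy, rfl⟩ := Finset.mem_image.1 hr
  refine Finset.mem_image.2 ⟨(x, y), ?_, rfl⟩
  rw [Finset.mem_offDiag]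
  exact ⟨hx, (Finset.mem_erase.1 hy).2, (Finset.mem_erase.1 hy).1.symm⟩

open Classical in
/-- the points of `P` on the line `a + ℝ v` -/
noncomputable def onLine {d : ℕ} (P : Finset (E d)) (a v : E d) : Finset (E d) :=
  P.filter (fun p => ∃ t : ℝ, p = a + t • v)

theorem line_bound {d : ℕ} (P : Finset (E d)) (a v : E d) (hv : v ≠ 0) (x : E d)
    (hx : x ∈ onLine P a v) : (onLine P a v).card ≤ 2 * (pinned P x).card + 1 := by
  classical
  set S := onLine P a v with hS
  have hvn : ‖v‖ ≠ 0 := norm_ne_zero_iff.2 hv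
  obtain ⟨hxP, t0, ht0⟩ := Finset.mem_filter.1 hx
  have h1 : S.card = (S.erase x).card + 1 := (Finset.card_erase_add_one hx).symm
  have hsub : (S.erase x).image (dist x) ⊆ pinned P x :=
    Finset.image_subset_image (Finset.erase_subset_erase x (Finset.filter_subset _ _))
  have h2 : (S.erase x).card ≤ 2 * ((S.erase x).image (dist x)).card := by
    refine Finset.card_le_mul_card_image _ 2 (fun r _ => ?_)
    have hsub2 : (S.erase x).filter (fun y => dist x y = r)
        ⊆ {x + (r / ‖v‖) • v, x - (r / ‖v‖) • v} := by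
      intro y hy
      obtain ⟨hy1, hyr⟩ := Finset.mem_filter.1 hy
      obtain ⟨-, t, ht⟩ := Finset.mem_filter.1 (Finset.mem_erase.1 hy1).2
      have hyx : y = x + (t - t0) • v := by rw [ht, ht0, sub_smul]; abel
      have hd : |t - t0| * ‖v‖ = r := by
        rw [← hyr, hyx, dist_eq_norm, sub_add_cancel_left, norm_neg, norm_smul, Real.norm_eq_abs]
      have habs : |t - t0| = r / ‖v‖ := by rw [← hd]; field_simp
      rw [Finset.mem_insert, Finset.mem_singleton]
      rcases eq_or_eq_neg_of_abs_eq habs with h | h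
      · left; rw [hyx, h]
      · right; rw [hyx, h, neg_smul, sub_eq_add_neg]
    exact (Finset.card_le_card hsub2).trans Finset.card_le_two
  have h3 := Finset.card_le_card hsub
  omega

/-- Let `P` be a nonempty finite set of `n` points of `ℝ^d` covered by the `k` lines
`a j + ℝ (v j)`.  Then some `x ∈ P` has `n ≤ k (2 |D_x| + 1)`, where `D_x` is the set of distances
from `x` to the other points of `P`; the same holds for the set of all distances; and if `n ≥ 2`
and `k ≤ n ^ (1 - 2 / d)`, then `P` determines at least `n ^ (2 / d) / 3` distinct distances. -/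
theorem result (d : ℕ) (P : Finset (E d)) (hP : P.Nonempty) (k : ℕ) (a v : Fin k → E d)
    (hv : ∀ j, v j ≠ 0) (hcov : ∀ p ∈ P, ∃ j, ∃ t : ℝ, p = a j + t • v j) :
    (∃ x ∈ P, P.card ≤ k * (2 * (pinned P x).card + 1)) ∧
    P.card ≤ k * (2 * (distSet P).card + 1) ∧
    (2 ≤ P.card → (k : ℝ) ≤ (P.card : ℝ) ^ (1 - 2 / (d : ℝ)) →
      (P.card : ℝ) ^ (2 / (d : ℝ)) / 3 ≤ ((distSet P).card : ℝ)) := by
  classical
  have hpin : ∃ x ∈ P, P.card ≤ k * (2 * (pinned P x).card + 1) := by
    have hne : (Finset.univ : Finset (Fin k)).Nonempty := by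
      obtain ⟨p, hp⟩ := hP
      obtain ⟨j, -⟩ := hcov p hp
      exact ⟨j, Finset.mem_univ j⟩
    obtain ⟨j, -, hj⟩ := Finset.exists_max_image Finset.univ
      (fun j => (onLine P (a j) (v j)).card) hne
    have hsub : P ⊆ Finset.univ.biUnion (fun j => onLine P (a j) (v j)) := by
      intro p hp
      obtain ⟨i, hi⟩ := hcov p hp
      exact Finset.mem_biUnion.2 ⟨i, Finset.mem_univ i, Finset.mem_filter.2 ⟨hp, hi⟩⟩
    have hcard : P.card ≤ k * (onLine P (a j) (v j)).card := by
      calc P.card ≤ (Finset.univ.biUnion (fun j => onLine P (a j) (v j))).card :=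
            Finset.card_le_card hsub
        _ ≤ ∑ i : Fin k, (onLine P (a i) (v i)).card := Finset.card_biUnion_le
        _ ≤ ∑ _i : Fin k, (onLine P (a j) (v j)).card :=
            Finset.sum_le_sum (fun i hi => hj i hi)
        _ = k * (onLine P (a j) (v j)).card := by simp
    have hSne : (onLine P (a j) (v j)).Nonempty := by
      rw [Finset.nonempty_iff_ne_empty]
      intro h0
      rw [h0, Finset.card_empty, mul_zero] at hcard
      exact (Finset.card_pos.2 hP).ne' (Nat.le_zero.1 hcard)
    obtain ⟨x, hx⟩ := hSne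
    refine ⟨x, (Finset.mem_filter.1 hx).1, hcard.trans ?_⟩
    exact Nat.mul_le_mul_left k (line_bound P (a j) (v j) (hv j) x hx)
  have hall : P.card ≤ k * (2 * (distSet P).card + 1) := by
    obtain ⟨x, hx, h⟩ := hpin
    refine h.trans (Nat.mul_le_mul_left k ?_)
    have := Finset.card_le_card (pinned_subset P x hx)
    omega
  refine ⟨hpin, hall, fun hn hk => ?_⟩
  set n : ℝ := (P.card : ℝ) with hndef
  set D : ℝ := ((distSet P).card : ℝ) with hD
  have hn0 : 0 < n := by rw [hndef]; exact_mod_cast (by omega : 0 < P.card)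
  have hD1 : 1 ≤ D := by
    rw [hD]
    have : 0 < (distSet P).card := by
      rw [Finset.card_pos]
      obtain ⟨x, hx, y, hy, hxy⟩ := Finset.one_lt_card.1 (by omega : 1 < P.card)
      exact ⟨dist x y, Finset.mem_image.2 ⟨(x, y), Finset.mem_offDiag.2 ⟨hx, hy, hxy⟩, rfl⟩⟩
    exact_mod_cast this
  have hall' : n ≤ k * (2 * D + 1) := by
    rw [hndef, hD]; exact_mod_cast hall
  have hsplit : n = n ^ (1 - 2 / (d : ℝ)) * n ^ (2 / (d : ℝ)) := by
    rw [← Real.rpow_add hn0]; simp
  have hA : 0 < n ^ (1 - 2 / (d : ℝ)) := Real.rpow_pos_of_pos hn0 _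
  have h1 : n ≤ n ^ (1 - 2 / (d : ℝ)) * (3 * D) := by
    calc n ≤ k * (2 * D + 1) := hall'
      _ ≤ n ^ (1 - 2 / (d : ℝ)) * (2 * D + 1) := by
          apply mul_le_mul_of_nonneg_right hk; linarith
      _ ≤ n ^ (1 - 2 / (d : ℝ)) * (3 * D) := by
          apply mul_le_mul_of_nonneg_left _ hA.le; linarith
  have h2 : n ^ (1 - 2 / (d : ℝ)) * n ^ (2 / (d : ℝ)) ≤ n ^ (1 - 2 / (d : ℝ)) * (3 * D) := by
    rw [← hsplit]; exact h1
  have h3 := le_of_mul_le_mul_left h2 hA
  linarith

end Vale.Agent.Results.P054.FewLines
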